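import Vale.Agent.P207.N4.Geo.CoreG
import Vale.Agent.P207.N4.Geo.LogicB
import Vale.Agent.P207.N4.H376.RicE

/-!
# P207: the logic under the Ricci - entropy condition

`logicG_of` : `LogicG` (the condition `(5 m - 1) ρ < 5 h²`, `Ric ≥ -ρ`) from `LogicB` (pointwise
bunching).
-/

open Set Filter Topology Metric MeasureTheory
open scoped ContDiff ENNReal

noncomputable section

namespace Vale.Agent.P207.N4.H376

open Vale.Agent.P207.N3

/-- **the logic under the Ricci - entropy condition** -/
theorem logicG_of [Dim] (h : LogicB) : LogicG :=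
  fun L S hC a b ha hab hlo hhi ρ hρ hQ hcal =>
    h L S hC a b ha hab hlo hhi (Ric.bunM_of_ric S.M S.A hρ hQ) hcal

end Vale.Agent.P207.N4.H376
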